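import Vale.Agent.P181.GN.Defs

set_option autoImplicit false

/-!
# P181, line GN: finite dimension
-/

open MvPolynomial

namespace Vale.Agent.P181.GN.H283

variable {k : ℕ}

lemma le_xs (v : Lt k →₀ ℕ) (p : Lt k) : v p * p.1 ≤ xs v := by
  classical
  by_cases hp : p ∈ v.support
  · exact Finset.single_le_sum (f := fun p : Lt k => v p * p.1) (fun _ _ => Nat.zero_le _) hp
  · rw [Finsupp.notMem_support_iff.1 hp, zero_mul]
    exact Nat.zero_le _

lemma le_us (v : Lt k →₀ ℕ) (p : Lt k) (i : Fin k) : v p * p.2 i ≤ us v i := by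
  classical
  by_cases hp : p ∈ v.support
  · exact Finset.single_le_sum (f := fun p : Lt k => v p * p.2 i) (fun _ _ => Nat.zero_le _) hp
  · rw [Finsupp.notMem_support_iff.1 hp, zero_mul]
    exact Nat.zero_le _

lemma two_ln_le (v : Lt k →₀ ℕ) (h : ∀ p ∈ v.support, 2 ≤ sz p) :
    2 * ln v ≤ xs v + ∑ i, us v i := by
  classical
  have h1 : xs v + ∑ i, us v i = v.sum fun p n => n * sz p := by
    unfold xs us Finsupp.sum
    rw [Finset.sum_comm, ← Finset.sum_add_distrib]
    refine Finset.sum_congr rfl fun p _ => ?_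
    simp only [sz, mul_add, Finset.mul_sum]
  rw [h1]
  unfold ln Finsupp.sum
  rw [Finset.mul_sum]
  refine Finset.sum_le_sum fun p hp => ?_
  rw [mul_comm]
  exact Nat.mul_le_mul_left _ (h p hp)

/-- Finitely many monomials. -/
lemma fin_mon (N : ℕ) : {v : Lt k →₀ ℕ | (∀ p ∈ v.support, 1 ≤ sz p) ∧ xs v ≤ N ∧
    ∀ i, us v i ≤ N}.Finite := by
  classical
  let B : Finset (Lt k) := Finset.range (N + 1) ×ˢ (Fintype.piFinset fun _ => Finset.range (N + 1))
  let b : Lt k →₀ ℕ := Finsupp.onFinset B (fun p => if p ∈ B then N + k * N else 0)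
    (fun p hp => by
      by_contra h
      exact hp (if_neg h))
  refine (Set.finite_Icc (0 : Lt k →₀ ℕ) b).subset ?_
  rintro v ⟨h1, h2, h3⟩
  refine ⟨fun p => Nat.zero_le _, fun p => ?_⟩
  by_cases hp : p ∈ v.support
  · have hv : 1 ≤ v p := Nat.one_le_iff_ne_zero.2 (Finsupp.mem_support_iff.1 hp)
    have hpB : p ∈ B := by
      rw [Finset.mem_product, Finset.mem_range, Fintype.mem_piFinset]
      refine ⟨Nat.lt_succ_of_le ?_, fun i => Finset.mem_range.2 (Nat.lt_succ_of_le ?_)⟩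
      · exact ((Nat.le_mul_of_pos_left _ hv).trans (le_xs v p)).trans h2
      · exact ((Nat.le_mul_of_pos_left _ hv).trans (le_us v p i)).trans (h3 i)
    have hb : b p = N + k * N := if_pos hpB
    rw [hb]
    have h4 : v p * sz p ≤ N + k * N := by
      unfold sz
      rw [mul_add, Finset.mul_sum]
      refine Nat.add_le_add ((le_xs v p).trans h2) ?_
      calc ∑ i, v p * p.2 i ≤ ∑ _i : Fin k, N :=
            Finset.sum_le_sum fun i _ => (le_us v p i).trans (h3 i)
        _ = k * N := by rw [Finset.sum_const, Finset.card_univ, Fintype.card_fin, smul_eq_mul]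
    exact (Nat.le_mul_of_pos_right _ (h1 p hp)).trans h4
  · rw [Finsupp.notMem_support_iff.1 hp]
    exact Nat.zero_le _

/-- Finite dimension from finitely many monomials. -/
lemma fd_of {P : (Lt k →₀ ℕ) → Prop} (h : {v | P v}.Finite) : FiniteDimensional ℂ (UH P) := by
  classical
  have : Finite {v : Lt k →₀ ℕ // P v} := h
  let L : UH P →ₗ[ℂ] ({v : Lt k →₀ ℕ // P v} → ℂ) :=
    LinearMap.pi fun s => (lcoeff ℂ s.1).comp (UH P).subtype
  have hL : Function.Injective L := by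
    rw [← LinearMap.ker_eq_bot, LinearMap.ker_eq_bot']
    rintro ⟨f, hf⟩ h0
    apply Subtype.ext
    change f = 0
    apply MvPolynomial.ext
    intro v
    rw [coeff_zero]
    by_contra hv
    exact hv (congrFun h0 ⟨v, hf.1 v hv⟩)
  exact FiniteDimensional.of_injective L hL

lemma fd_EL (tau : Fin k → ℕ) (z : ℤ) : FiniteDimensional ℂ (UH (gEL tau z)) := by
  refine fd_of ((fin_mon (z.toNat + ∑ i, tau i)).subset ?_)
  rintro v ⟨h1, h2, h3⟩
  refine ⟨h1, ?_, fun i => ?_⟩
  · omega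
  · rw [h3 i]
    have := Finset.single_le_sum (f := tau) (fun _ _ => Nat.zero_le _) (Finset.mem_univ i)
    omega

lemma gPP_ln {tau : Fin k → ℕ} {y m0 : ℕ} {v : Lt k →₀ ℕ} (h : gPP tau y m0 v) :
    ln v ≤ m0 + ∑ i, tau i := by
  obtain ⟨h1, h2, h3⟩ := h
  have h4 := two_ln_le v h1
  have h5 : ∑ i, us v i = ∑ i, tau i := Finset.sum_congr rfl fun i _ => h3 i
  omega

lemma fd_PP (tau : Fin k → ℕ) (y m0 : ℕ) : FiniteDimensional ℂ (UH (gPP tau y m0)) := by
  refine fd_of ((fin_mon (2 * m0 + ∑ i, tau i)).subset ?_)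
  intro v hv
  have h4 := gPP_ln hv
  obtain ⟨h1, h2, h3⟩ := hv
  refine ⟨fun p hp => (by norm_num : 1 ≤ 2).trans (h1 p hp), ?_, fun i => ?_⟩
  · omega
  · rw [h3 i]
    have := Finset.single_le_sum (f := tau) (fun _ _ => Nat.zero_le _) (Finset.mem_univ i)
    omega

lemma fd_TT (tau : Fin k → ℕ) (y m0 : ℕ) : FiniteDimensional ℂ (UH (gTT tau y m0)) := by
  refine fd_of ((fin_mon (m0 + ∑ i, tau i)).subset ?_)
  rintro v ⟨h1, h2, h3⟩
  refine ⟨fun p hp => (by norm_num : 1 ≤ 2).trans (h1 p hp), ?_, fun i => ?_⟩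
  · omega
  · rw [h3 i]
    have := Finset.single_le_sum (f := tau) (fun _ _ => Nat.zero_le _) (Finset.mem_univ i)
    omega

/-- **[FD]** -/
theorem fD : FD := fun _ y m0 tau z => ⟨fd_PP tau y m0, fd_EL tau z, fd_TT tau y m0⟩

end Vale.Agent.P181.GN.H283
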