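import Vale.Agent.P181.GN.H283.FD
import Mathlib.RingTheory.MvPolynomial.WeightedHomogeneous

set_option autoImplicit false

/-!
# P181, line GN, Q5: many letters

`L` = component with `r` plain and `c` coloured letters, then `(j, 0) ↦ (j - 2, 0)` (`(2, 0) ↦ 1`),
then multiplication by a power of the letter `(1, 0)`.
-/

open MvPolynomial

namespace Vale.Agent.P181.GN.H283

variable {k : ℕ}

open scoped Classical in
/-- The weights: plain and coloured letters. -/
noncomputable def wt (p : Lt k) : ℕ × ℕ := if p.2 = 0 then (1, 0) else (0, 1)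

open scoped Classical in
/-- The image of a letter. -/
noncomputable def sh (p : Lt k) : Lt k →₀ ℕ :=
  if p.2 = 0 then (if p.1 ≤ 2 then 0 else Finsupp.single (p.1 - 2, 0) 1) else Finsupp.single p 1

lemma wt_raise {r i : Fin k} (p : Lt k) (hp : p.2 i ≠ 0) :
    wt ((p.1, p.2 - Pi.single i 1 + Pi.single r 1) : Lt k) = wt p := by
  classical
  have h1 : p.2 ≠ 0 := fun h => hp (by rw [h]; rfl)
  have h2 : p.2 - Pi.single i 1 + Pi.single r 1 ≠ 0 := by
    intro h
    have := congrFun h r
    simp at this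
  unfold wt
  rw [if_neg h1, if_neg h2]

lemma weight_sub (v : Lt k →₀ ℕ) (p : Lt k) (hp : p ∈ v.support) :
    Finsupp.weight wt (v - Finsupp.single p 1) + wt p = Finsupp.weight wt v := by
  have h1 : v - Finsupp.single p 1 + Finsupp.single p 1 = v := by
    refine tsub_add_cancel_of_le ?_
    rw [Finsupp.single_le_iff]
    exact Nat.one_le_iff_ne_zero.2 (Finsupp.mem_support_iff.1 hp)
  conv_rhs => rw [← h1, map_add, Finsupp.weight_single, one_smul]

lemma EU_monomial_hom {r i : Fin k} (hri : r ≠ i) (v : Lt k →₀ ℕ) (a : ℂ) :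
    IsWeightedHomogeneous wt (EU r i (monomial v a)) (Finsupp.weight wt v) := by
  rw [EU, mkDerivation_monomial, ← mem_weightedHomogeneousSubmodule ℂ]
  refine Submodule.smul_mem _ _ (Submodule.sum_mem _ fun p hp => ?_)
  rw [mem_weightedHomogeneousSubmodule]
  beta_reduce
  by_cases h : p.2 i = 0
  · rw [h]
    simp only [Nat.cast_zero, zero_smul, smul_zero]
    exact isWeightedHomogeneous_zero _ _ _
  · rw [← weight_sub v p hp, ← wt_raise (r := r) p h, smul_eq_mul]
    refine (isWeightedHomogeneous_monomial wt _ _ rfl).mul ?_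
    rw [← mem_weightedHomogeneousSubmodule ℂ]
    refine Submodule.smul_mem _ _ ?_
    rw [mem_weightedHomogeneousSubmodule]
    exact isWeightedHomogeneous_X _ _ _

/-- The component. -/
noncomputable abbrev cp (n : ℕ × ℕ) : Po k →ₗ[ℂ] Po k := weightedHomogeneousComponent wt n

lemma EU_cp {r i : Fin k} (hri : r ≠ i) (n : ℕ × ℕ) (f : Po k) :
    EU r i (cp n f) = cp n (EU r i f) := by
  classical
  induction f using MvPolynomial.induction_on' with
  | monomial v a =>
    have h1 := isWeightedHomogeneous_monomial (R := ℂ) (wt (k := k)) v a rfl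
    have h2 := EU_monomial_hom hri v a
    by_cases h : Finsupp.weight wt v = n
    · subst h
      rw [cp, h1.weightedHomogeneousComponent_same, h2.weightedHomogeneousComponent_same]
    · have h' : n ≠ Finsupp.weight wt v := fun e => h e.symm
      rw [cp, h1.weightedHomogeneousComponent_ne n h', h2.weightedHomogeneousComponent_ne n h',
        map_zero]
  | add p q hp hq => rw [map_add, map_add, map_add, map_add, hp, hq]

/-- The shift. -/
noncomputable def ph : Po k →ₐ[ℂ] Po k := aeval fun p => monomial (sh p) (1 : ℂ)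

lemma ph_X (p : Lt k) : ph (X p) = monomial (sh p) (1 : ℂ) := by
  rw [ph, aeval_X]

lemma ph_monomial (v : Lt k →₀ ℕ) (a : ℂ) :
    ph (monomial v a) = monomial (Finsupp.weight sh v) a := by
  have h1 : Finsupp.weight sh v = v.sum fun p n => n • sh p := rfl
  rw [ph, aeval_monomial, h1, monomial_finsupp_sum_index]
  congr 1
  refine Finsupp.prod_congr fun p _ => ?_
  rw [monomial_pow, one_pow]

lemma EU_sh {r i : Fin k} (hri : r ≠ i) (p : Lt k) :
    EU r i (ph (X p)) = ph (EU r i (X p)) := by
  classical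
  have hX : ∀ q : Lt k, EU r i (X q) =
      (q.2 i : ℂ) • X ((q.1, q.2 - Pi.single i 1 + Pi.single r 1) : Lt k) := fun q => by
    rw [EU, mkDerivation_X]
  by_cases h : p.2 = 0
  · have h1 : EU r i (X p) = 0 := by
      rw [hX, h]
      simp
    rw [h1, map_zero, ph_X, sh, if_pos h]
    by_cases h2 : p.1 ≤ 2
    · rw [if_pos h2]
      have h3 : (monomial (0 : Lt k →₀ ℕ) (1 : ℂ)) = (1 : Po k) := rfl
      rw [h3]
      exact Derivation.map_one_eq_zero _
    · rw [if_neg h2]
      change EU r i (X ((p.1 - 2, 0) : Lt k)) = 0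
      rw [hX]
      simp
  · have h1 : ph (X p) = X p := by
      rw [ph_X, sh, if_neg h]
      rfl
    rw [h1, hX, map_smul]
    by_cases h2 : p.2 i = 0
    · rw [h2]
      simp
    · congr 1
      have h3 : ((p.1, p.2 - Pi.single i 1 + Pi.single r 1) : Lt k).2 ≠ 0 := by
        intro h
        have := congrFun h r
        simp at this
      rw [ph_X, sh, if_neg h3]
      rfl

lemma EU_ph {r i : Fin k} (hri : r ≠ i) (f : Po k) : EU r i (ph f) = ph (EU r i f) := by
  induction f using MvPolynomial.induction_on with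
  | C a =>
    have h1 : ph (C a : Po k) = C a := ph.commutes a
    rw [h1]
    have h2 : EU r i (C a : Po k) = 0 := Derivation.map_algebraMap _ a
    rw [h2, map_zero]
  | add f g hf hg => rw [map_add, map_add, hf, hg, map_add, map_add]
  | mul_X f p hf =>
    rw [map_mul, Derivation.leibniz, Derivation.leibniz, map_add, hf, EU_sh hri]
    simp only [smul_eq_mul, map_mul]

/-! ### The exponents -/

/-- Two additive maps on exponents. -/
lemma add_ext {M : Type} [AddCommMonoid M] (f g : (Lt k →₀ ℕ) →+ M)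
    (h : ∀ p, f (Finsupp.single p 1) = g (Finsupp.single p 1)) : f = g := by
  refine Finsupp.addHom_ext fun p n => ?_
  have h1 : Finsupp.single p n = n • Finsupp.single p (1 : ℕ) := by
    rw [Finsupp.smul_single, smul_eq_mul, mul_one]
  rw [h1, map_nsmul, map_nsmul, h]

/-- `xs`, `us`, `ln` as additive maps. -/
lemma xs_eq (v : Lt k →₀ ℕ) : xs v = Finsupp.weight (fun p : Lt k => p.1) v := by
  rfl

lemma us_eq (v : Lt k →₀ ℕ) (i : Fin k) : us v i = Finsupp.weight (fun p : Lt k => p.2 i) v := by
  rfl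

lemma ln_eq (v : Lt k →₀ ℕ) : ln v = Finsupp.weight (fun _ : Lt k => 1) v := by
  unfold ln
  rw [Finsupp.weight_apply]
  exact Finsupp.sum_congr fun p _ => by rw [smul_eq_mul, mul_one]

lemma ln_wt (v : Lt k →₀ ℕ) :
    ln v = (Finsupp.weight wt v).1 + (Finsupp.weight wt v).2 := by
  classical
  rw [ln_eq]
  have h : (Finsupp.weight (fun _ : Lt k => 1) : (Lt k →₀ ℕ) →+ ℕ) =
      ((AddMonoidHom.fst ℕ ℕ + AddMonoidHom.snd ℕ ℕ).comp
        (Finsupp.weight wt : (Lt k →₀ ℕ) →+ ℕ × ℕ)) := by
    apply add_ext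
    intro p
    simp only [AddMonoidHom.comp_apply, AddMonoidHom.add_apply, Finsupp.weight_single, one_smul,
      AddMonoidHom.coe_fst, AddMonoidHom.coe_snd]
    unfold wt
    split_ifs <;> rfl
  rw [h]
  rfl

lemma us_sh (v : Lt k →₀ ℕ) (i : Fin k) : us (Finsupp.weight sh v) i = us v i := by
  classical
  rw [us_eq, us_eq]
  have h : (Finsupp.weight (fun p : Lt k => p.2 i) : (Lt k →₀ ℕ) →+ ℕ).comp
      (Finsupp.weight sh : (Lt k →₀ ℕ) →+ (Lt k →₀ ℕ)) =
      Finsupp.weight (fun p : Lt k => p.2 i) := by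
    apply add_ext
    intro p
    rw [AddMonoidHom.comp_apply, Finsupp.weight_single, one_smul, Finsupp.weight_single, one_smul]
    unfold sh
    split_ifs with h1 h2
    · rw [map_zero, h1]
      rfl
    · rw [Finsupp.weight_single, h1]
      simp
    · rw [Finsupp.weight_single, one_smul]
  exact DFunLike.congr_fun h v

lemma sh_zero (v : Lt k →₀ ℕ) : Finsupp.weight sh v ((0, 0) : Lt k) = 0 := by
  classical
  have h : (Finsupp.applyAddHom ((0, 0) : Lt k) : (Lt k →₀ ℕ) →+ ℕ).comp
      (Finsupp.weight sh : (Lt k →₀ ℕ) →+ (Lt k →₀ ℕ)) = 0 := by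
    apply add_ext
    intro p
    rw [AddMonoidHom.comp_apply, Finsupp.weight_single, one_smul]
    change sh p (0, 0) = 0
    unfold sh
    split_ifs with h1 h2
    · rfl
    · rw [Finsupp.single_apply, if_neg]
      intro h3
      have := congrArg Prod.fst h3
      simp only at this
      omega
    · rw [Finsupp.single_apply, if_neg]
      intro h3
      exact h1 (congrArg Prod.snd h3)
  exact DFunLike.congr_fun h v

lemma sh_col (v : Lt k →₀ ℕ) (q : Lt k) (hq : q.2 ≠ 0) : Finsupp.weight sh v q = v q := by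
  classical
  have h : (Finsupp.applyAddHom q : (Lt k →₀ ℕ) →+ ℕ).comp
      (Finsupp.weight sh : (Lt k →₀ ℕ) →+ (Lt k →₀ ℕ)) =
      (Finsupp.applyAddHom q : (Lt k →₀ ℕ) →+ ℕ) := by
    apply add_ext
    intro p
    rw [AddMonoidHom.comp_apply, Finsupp.weight_single, one_smul]
    change sh p q = Finsupp.single p 1 q
    unfold sh
    split_ifs with h1 h2
    · rw [Finsupp.single_apply, if_neg]
      · rfl
      · rintro rfl
        exact hq h1
    · rw [Finsupp.single_apply, Finsupp.single_apply, if_neg, if_neg]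
      · rintro rfl
        exact hq h1
      · intro h3
        exact hq (congrArg Prod.snd h3).symm
    · rfl
  exact DFunLike.congr_fun h v

lemma sh_plain (v : Lt k →₀ ℕ) (j : ℕ) (hj : 1 ≤ j) :
    Finsupp.weight sh v ((j, 0) : Lt k) = v (j + 2, 0) := by
  classical
  have h : (Finsupp.applyAddHom ((j, 0) : Lt k) : (Lt k →₀ ℕ) →+ ℕ).comp
      (Finsupp.weight sh : (Lt k →₀ ℕ) →+ (Lt k →₀ ℕ)) =
      (Finsupp.applyAddHom ((j + 2, 0) : Lt k) : (Lt k →₀ ℕ) →+ ℕ) := by
    apply add_ext
    intro p
    rw [AddMonoidHom.comp_apply, Finsupp.weight_single, one_smul]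
    change sh p (j, 0) = Finsupp.single p 1 (j + 2, 0)
    unfold sh
    split_ifs with h1 h2
    · rw [Finsupp.single_apply, if_neg]
      · rfl
      · intro h3
        have := congrArg Prod.fst h3
        simp only at this
        omega
    · rw [Finsupp.single_apply, Finsupp.single_apply]
      have h3 : (((p.1 - 2, 0) : Lt k) = (j, 0)) ↔ p = (j + 2, 0) := by
        constructor
        · intro h4
          have h5 := congrArg Prod.fst h4
          simp only at h5
          exact Prod.ext (by simp only; omega) h1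
        · rintro rfl
          simp
      by_cases h4 : p = (j + 2, 0)
      · rw [if_pos (h3.2 h4), if_pos h4]
      · rw [if_neg (fun h5 => h4 (h3.1 h5)), if_neg h4]
    · rw [Finsupp.single_apply, Finsupp.single_apply, if_neg, if_neg]
      · intro h3
        exact h1 (congrArg Prod.snd h3)
      · intro h3
        exact h1 (congrArg Prod.snd h3)
  exact DFunLike.congr_fun h v

/-- The shift is injective on the exponents with the same weights. -/
lemma sh_inj {v v' : Lt k →₀ ℕ} (h1 : ∀ p ∈ v.support, 2 ≤ sz p) (h1' : ∀ p ∈ v'.support, 2 ≤ sz p)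
    (hw : Finsupp.weight wt v = Finsupp.weight wt v')
    (hs : Finsupp.weight sh v = Finsupp.weight sh v') : v = v' := by
  classical
  have hz : ∀ (u : Lt k →₀ ℕ), (∀ p ∈ u.support, 2 ≤ sz p) → ∀ j, j < 2 → u ((j, 0) : Lt k) = 0 := by
    intro u hu j hj
    by_contra h
    have := hu (j, 0) (Finsupp.mem_support_iff.2 h)
    simp [sz] at this
    omega
  have h2 : ∀ p : Lt k, p ≠ (2, 0) → v p = v' p := by
    intro p hp
    by_cases hc : p.2 = 0
    · obtain ⟨j, q⟩ := p
      simp only at hc
      subst hc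
      rcases lt_trichotomy j 2 with h | h | h
      · rw [hz v h1 j h, hz v' h1' j h]
      · subst h
        exact absurd rfl hp
      · obtain ⟨i, rfl⟩ : ∃ i, j = i + 2 := ⟨j - 2, by omega⟩
        rw [← sh_plain v i (by omega), ← sh_plain v' i (by omega), hs]
    · rw [← sh_col v p hc, ← sh_col v' p hc, hs]
  have h3 : v + Finsupp.single ((2, 0) : Lt k) (v' (2, 0)) =
      v' + Finsupp.single ((2, 0) : Lt k) (v (2, 0)) := by
    ext p
    rw [Finsupp.add_apply, Finsupp.add_apply, Finsupp.single_apply, Finsupp.single_apply]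
    by_cases hp : (2, 0) = p
    · subst hp
      rw [if_pos rfl, if_pos rfl, add_comm]
    · rw [if_neg hp, if_neg hp, h2 p (Ne.symm hp)]
  have h4 := congrArg (Finsupp.weight wt) h3
  rw [map_add, map_add, hw, Finsupp.weight_single, Finsupp.weight_single] at h4
  have h5 : (v' (2, 0)) • wt ((2, 0) : Lt k) = (v (2, 0)) • wt ((2, 0) : Lt k) :=
    add_left_cancel h4
  have h6 : wt ((2, 0) : Lt k) = (1, 0) := if_pos rfl
  rw [h6] at h5
  have h7 := congrArg Prod.fst h5
  simp at h7
  ext p
  by_cases hp : p = (2, 0)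
  · subst hp
    exact h7.symm
  · exact h2 p hp

lemma xs_sh (v : Lt k →₀ ℕ) (h : ∀ p ∈ v.support, 2 ≤ sz p) :
    xs (Finsupp.weight sh v) + 2 * (Finsupp.weight wt v).1 = xs v := by
  classical
  have h0 : xs (Finsupp.weight sh v) = v.sum fun p n => n * xs (sh p) := by
    rw [xs_eq, Finsupp.weight_apply sh, Finsupp.sum, map_sum]
    refine Finset.sum_congr rfl fun p _ => ?_
    rw [map_nsmul, smul_eq_mul]
    rfl
  have h1 : (Finsupp.weight wt v).1 = v.sum fun p n => n * (wt p).1 := by
    rw [Finsupp.weight_apply, Finsupp.sum, Prod.fst_sum]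
    exact Finset.sum_congr rfl fun p _ => by rw [Prod.smul_fst, smul_eq_mul]
  rw [h0, h1]
  unfold xs Finsupp.sum
  rw [Finset.mul_sum, ← Finset.sum_add_distrib]
  refine Finset.sum_congr rfl fun p hp => ?_
  have h2 := h p hp
  have h3 : (sh p).sum (fun p n => n * p.1) + 2 * (wt p).1 = p.1 := by
    unfold sh wt
    split_ifs with h4 h5
    · have h6 : sz p = p.1 := by
        unfold sz
        rw [h4]
        simp
      rw [Finsupp.sum_zero_index]
      simp only
      omega
    · rw [Finsupp.sum_single_index (by simp)]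
      simp only
      omega
    · rw [Finsupp.sum_single_index (by simp)]
      simp
  have h4 : ∀ x : ℕ, v p * x + 2 * (v p * (wt p).1) = v p * (x + 2 * (wt p).1) := by
    intro x
    ring
  calc v p * ∑ a ∈ (sh p).support, sh p a * a.1 + 2 * (v p * (wt p).1)
      = v p * ((sh p).sum (fun p n => n * p.1) + 2 * (wt p).1) := h4 _
    _ = v p * p.1 := by rw [h3]

lemma col_le (v : Lt k →₀ ℕ) : (Finsupp.weight wt v).2 ≤ ∑ i, us v i := by
  classical
  have h1 : (Finsupp.weight wt v).2 = v.sum fun p n => n * (wt p).2 := by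
    rw [Finsupp.weight_apply, Finsupp.sum, Prod.snd_sum]
    exact Finset.sum_congr rfl fun p _ => by rw [Prod.smul_snd, smul_eq_mul]
  rw [h1]
  unfold us Finsupp.sum
  rw [Finset.sum_comm]
  refine Finset.sum_le_sum fun p _ => ?_
  rw [← Finset.mul_sum]
  refine Nat.mul_le_mul_left _ ?_
  unfold wt
  split_ifs with h
  · exact Nat.zero_le _
  · obtain ⟨i, hi⟩ := Function.ne_iff.1 h
    exact (Nat.one_le_iff_ne_zero.2 hi).trans
      (Finset.single_le_sum (f := p.2) (fun _ _ => Nat.zero_le _) (Finset.mem_univ i))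

lemma ph_inj {g : Po k} {n : ℕ × ℕ} (hg : ∀ v, coeff v g ≠ 0 →
    Finsupp.weight wt v = n ∧ ∀ p ∈ v.support, 2 ≤ sz p) (h0 : ph g = 0) : g = 0 := by
  classical
  apply MvPolynomial.ext
  intro v0
  rw [coeff_zero]
  by_contra hv
  have h1 : ph g = ∑ v ∈ g.support, monomial (Finsupp.weight sh v) (coeff v g) := by
    conv_lhs => rw [g.as_sum, map_sum]
    exact Finset.sum_congr rfl fun v _ => ph_monomial _ _
  have h2 : coeff (Finsupp.weight sh v0) (ph g) = coeff v0 g := by
    rw [h1, coeff_sum, Finset.sum_eq_single v0]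
    · rw [coeff_monomial, if_pos rfl]
    · intro v hv1 hne
      rw [coeff_monomial, if_neg]
      intro h3
      obtain ⟨a1, a2⟩ := hg v (mem_support_iff.1 hv1)
      obtain ⟨b1, b2⟩ := hg v0 hv
      exact hne (sh_inj a2 b2 (a1.trans b1.symm) h3)
    · intro h3
      exact absurd (mem_support_iff.2 hv) h3
  rw [h0, coeff_zero] at h2
  exact hv h2.symm

lemma EU_one (r i : Fin k) : EU r i (X ((1, 0) : Lt k)) = 0 := by
  rw [EU, mkDerivation_X]
  simp

lemma EU_pow (r i : Fin k) (d : ℕ) (f : Po k) :
    EU r i (X ((1, 0) : Lt k) ^ d * f) = X ((1, 0) : Lt k) ^ d * EU r i f := by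
  rw [Derivation.leibniz, Derivation.leibniz_pow, EU_one]
  simp

/-- The map of a pair `(r, c)`. -/
noncomputable def Lm (d : ℕ) (n : ℕ × ℕ) : Po k →ₗ[ℂ] Po k :=
  (LinearMap.mulLeft ℂ (X ((1, 0) : Lt k) ^ d)).comp (ph.toLinearMap.comp (cp n))

lemma Lm_apply (d : ℕ) (n : ℕ × ℕ) (f : Po k) : Lm d n f = X ((1, 0) : Lt k) ^ d * ph (cp n f) :=
  rfl

/-- The support of the image. -/
lemma supp_Lm {d : ℕ} {n : ℕ × ℕ} {f : Po k} {u : Lt k →₀ ℕ} (hu : coeff u (Lm d n f) ≠ 0) :
    ∃ v, coeff v f ≠ 0 ∧ Finsupp.weight wt v = n ∧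
      u = Finsupp.single ((1, 0) : Lt k) d + Finsupp.weight sh v := by
  classical
  rw [Lm_apply, X_pow_eq_monomial] at hu
  have h1 : ph (cp n f) = ∑ v ∈ (cp n f).support, monomial (Finsupp.weight sh v)
      (coeff v (cp n f)) := by
    conv_lhs => rw [(cp n f).as_sum, map_sum]
    exact Finset.sum_congr rfl fun v _ => ph_monomial _ _
  rw [h1, Finset.mul_sum, coeff_sum] at hu
  obtain ⟨v, hv, h2⟩ := Finset.exists_ne_zero_of_sum_ne_zero hu
  rw [monomial_mul, coeff_monomial] at h2
  have h3 : Finsupp.single ((1, 0) : Lt k) d + Finsupp.weight sh v = u := by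
    by_contra h
    exact h2 (if_neg h)
  have h4 : coeff v (cp n f) ≠ 0 := mem_support_iff.1 hv
  rw [cp, coeff_weightedHomogeneousComponent] at h4
  by_cases h5 : Finsupp.weight wt v = n
  · rw [if_pos h5] at h4
    exact ⟨v, h4, h5, h3.symm⟩
  · exact absurd (if_neg h5) h4

/-- **[Q5]** many letters. -/
theorem q5 : Q5 := by
  classical
  intro k V y m0 tau
  set t := ∑ i, tau i with ht
  set P : (Lt k →₀ ℕ) → Prop := fun v => gPP tau y m0 v ∧ V < ln v with hP
  set z : ℤ := (m0 : ℤ) + 2 * (t : ℕ) - y - V - 1 with hz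
  have hfd := fd_EL tau z
  let I : Finset (ℕ × ℕ) := Finset.range (m0 + t + 1) ×ˢ Finset.range (m0 + t + 1)
  let dd : ℕ × ℕ → ℕ := fun n => 2 * t + n.1 - (V + 1 + n.2)
  have hmem : ∀ (n : ℕ × ℕ) (f : Po k), f ∈ UH P → Lm (dd n) n f ∈ UH (gEL tau z) := by
    intro n f hf
    refine ⟨fun u hu => ?_, fun r i hri => ?_⟩
    · obtain ⟨v, h1, h2, rfl⟩ := supp_Lm hu
      obtain ⟨⟨h3, h4, h5⟩, h6⟩ := hf.1 v h1
      have h7 := ln_wt v
      have h8 := xs_sh v h3
      have h9 := col_le v
      have h10 : ∑ i, us v i = t := Finset.sum_congr rfl fun i _ => h5 i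
      rw [h2] at h7 h8 h9
      refine ⟨?_, ?_, fun i => ?_⟩
      · intro p hp
        by_contra hsz
        have hp0 : p = (0, 0) := by
          have h11 : sz p = 0 := by omega
          unfold sz at h11
          refine Prod.ext (by simp only; omega) ?_
          funext i
          have := Finset.single_le_sum (f := p.2) (fun _ _ => Nat.zero_le _) (Finset.mem_univ i)
          simp only [Pi.zero_apply]
          omega
        rw [Finsupp.mem_support_iff] at hp
        apply hp
        have h12 : Finsupp.single ((1, 0) : Lt k) (dd n) ((0, 0) : Lt k) = 0 := by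
          rw [Finsupp.single_apply, if_neg]
          intro h12
          exact absurd (congrArg Prod.fst h12) (by norm_num)
        rw [hp0, Finsupp.add_apply, sh_zero, h12, add_zero]
      · have h11 : xs (Finsupp.single ((1, 0) : Lt k) (dd n) + Finsupp.weight sh v) =
            dd n + xs (Finsupp.weight sh v) := by
          rw [xs_eq, map_add, Finsupp.weight_single, ← xs_eq]
          simp
        rw [h11]
        have h12 : dd n = 2 * t + n.1 - (V + 1 + n.2) := rfl
        rw [h12, hz]
        omega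
      · rw [us_eq, map_add, Finsupp.weight_single, ← us_eq, us_sh, h5 i]
        simp
    · rw [Lm_apply, EU_pow, EU_ph (ne_of_lt hri), EU_cp (ne_of_lt hri), hf.2 r i hri, map_zero,
        map_zero, mul_zero]
  let L : UH P →ₗ[ℂ] (I → UH (gEL tau z)) :=
    LinearMap.pi fun n => ((Lm (dd n.1) n.1).comp (UH P).subtype).codRestrict _
      fun f => hmem n.1 f.1 f.2
  have hL : Function.Injective L := by
    rw [← LinearMap.ker_eq_bot, LinearMap.ker_eq_bot']
    rintro ⟨f, hf⟩ h
    apply Subtype.ext
    change f = 0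
    apply MvPolynomial.ext
    intro v
    rw [coeff_zero]
    by_contra hv
    obtain ⟨⟨h3, h4, h5⟩, h6⟩ := hf.1 v hv
    have h7 := ln_wt v
    have h9 := col_le v
    have h10 : ∑ i, us v i = t := Finset.sum_congr rfl fun i _ => h5 i
    have h11 : ln v ≤ m0 + t := gPP_ln ⟨h3, h4, h5⟩
    have hI : Finsupp.weight wt v ∈ I := by
      rw [Finset.mem_product, Finset.mem_range, Finset.mem_range]
      omega
    have h12 : Lm (dd (Finsupp.weight wt v)) (Finsupp.weight wt v) f = 0 :=
      congrArg Subtype.val (congrFun h ⟨Finsupp.weight wt v, hI⟩)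
    rw [Lm_apply] at h12
    have h13 : ph (cp (Finsupp.weight wt v) f) = 0 := by
      rcases mul_eq_zero.1 h12 with h14 | h14
      · exact absurd h14 (pow_ne_zero _ (X_ne_zero _))
      · exact h14
    have h15 : cp (Finsupp.weight wt v) f = 0 := by
      refine ph_inj (n := Finsupp.weight wt v) (fun v' hv' => ?_) h13
      rw [cp, coeff_weightedHomogeneousComponent] at hv'
      by_cases h16 : Finsupp.weight wt v' = Finsupp.weight wt v
      · rw [if_pos h16] at hv'
        exact ⟨h16, (hf.1 v' hv').1.1⟩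
      · exact absurd (if_neg h16) hv'
    have h16 : coeff v (cp (Finsupp.weight wt v) f) = coeff v f := by
      rw [cp, coeff_weightedHomogeneousComponent, if_pos rfl]
    rw [h15, coeff_zero] at h16
    exact hv h16.symm
  have h := LinearMap.finrank_le_finrank_of_injective hL
  rw [Module.finrank_pi_fintype, Finset.sum_const, Finset.card_univ, smul_eq_mul,
    Fintype.card_coe, Finset.card_product, Finset.card_range] at h
  rw [pow_two]
  exact h

end Vale.Agent.P181.GN.H283
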